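import Crest.Agent.N49.Sw.Df5
import Crest.Agent.N49.Sw.Kmq
import Crest.Agent.N49.Sw.Ent
import Crest.Agent.N49.Su.Df2
import Crest.Agent.N49.Sd.Sy0

/-!
# Row 49 (helper98): the geometry of a step; the words with the blocks `U`
-/

set_option autoImplicit false
set_option linter.unusedSectionVars false

open MvPolynomial Finset

noncomputable section

namespace Crest.Agent.N49.St

open Tw Sw Sd Sy Su

variable {τ L : Type} [Fintype τ] [DecidableEq τ] [Fintype L] [DecidableEq L]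

theorem wE_ind (E : Finset τ) : wE E = ind E := by
  ext t; simp [wE, ind_apply, Finsupp.finset_sum_apply, Finsupp.single_apply]

theorem ind_md {blk : τ → L} {A : Finset τ} (h : Set.InjOn blk A) :
    (ind A).mapDomain blk = ind (A.image blk) := by
  rw [← wE_ind, ← wE_ind, wE, wE, sum_image h]
  exact (map_sum (Finsupp.mapDomain.addMonoidHom blk) _ _).trans
    (sum_congr rfl fun _ _ => Finsupp.mapDomain_single)

theorem mem_W {s : ℕ} {W : Finset (Finset τ)} {blk : τ → L} {x : τ} (h : Al s W blk x)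
    {μ : τ →₀ ℕ} : μ ∈ W.image ind ↔ ∀ ℓ, μ.mapDomain blk ℓ ≤ 1 := by
  refine ⟨fun k ℓ => ?_, fun k => mem_image.2 ⟨_, (h.mem _).2 (Kq.md_le k).2, (Kq.md_le k).1.symm⟩⟩
  obtain ⟨A, a, rfl⟩ := mem_image.1 k
  rw [ind_md ((h.mem _).1 a)]; exact Et.ind_le_one _ _

section geo
variable (blk : τ → L) (x : τ) (U : Finset L)

/-- the number of the doubled blocks -/
abbrev lU : ℕ := #(U.erase (blk x))
/-- their letters -/
abbrev KU : Type := {a : τ // blk a ∈ U.erase (blk x)}
/-- the block of a letter -/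
def bU (k : KU blk x U) : Fin (lU blk x U) := (U.erase (blk x)).equivFin ⟨blk k.1, k.2⟩
/-- sections -/
abbrev JU : Type := {e : Fin (lU blk x U) → KU blk x U // ∀ i, bU blk x U (e i) = i}

variable {blk U}
/-- the letters of a section -/
def EU (e : Fin (lU blk x U) → KU blk x U) : Finset τ := insert x (univ.image fun i => (e i).1)

/-- **the geometry** -/
def gq (W : Finset (Finset τ)) {I : Type} (ec : I → JU blk x U) (mc : ℕ) :
    Gq τ I (KU blk x U) (lU blk x U) :=
  ⟨x, Subtype.val, bU blk x U, fun c => (ec c).1, W.image ind, mc⟩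

variable {x}

theorem bU_eq {k k' : KU blk x U} : bU blk x U k = bU blk x U k' ↔ blk k.1 = blk k'.1 := by
  simp [bU]

theorem KU_ne (k : KU blk x U) : blk k.1 ≠ blk x := (mem_erase.1 k.2).1

theorem x_EU (e : Fin (lU blk x U) → KU blk x U) : x ∈ EU x e := mem_insert_self _ _

theorem mem_EU {e : Fin (lU blk x U) → KU blk x U} {a : τ} :
    a ∈ EU x e ↔ a = x ∨ ∃ i, (e i).1 = a := by simp [EU]

theorem JU_inj (e : JU blk x U) : Function.Injective fun i => (e.1 i).1 := fun i j k => by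
  rw [← e.2 i, ← e.2 j, Subtype.ext k]

theorem EU_inj (e : JU blk x U) : Set.InjOn blk (EU x e.1) := by
  intro a ha b hb k
  rcases mem_EU.1 ha with rfl | ⟨i, rfl⟩ <;> rcases mem_EU.1 hb with rfl | ⟨j, rfl⟩
  · rfl
  · exact absurd k.symm (KU_ne _)
  · exact absurd k (KU_ne _)
  · have := bU_eq.2 k
    rw [e.2, e.2] at this
    rw [this]

theorem EU_img (h : blk x ∈ U) (e : JU blk x U) : (EU x e.1).image blk = U := by
  ext ℓ
  refine ⟨fun k => ?_, fun k => ?_⟩
  · obtain ⟨a, ha, rfl⟩ := mem_image.1 k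
    rcases mem_EU.1 ha with rfl | ⟨i, rfl⟩
    exacts [h, (mem_erase.1 (e.1 i).2).2]
  · by_cases n : ℓ = blk x
    · exact mem_image.2 ⟨x, x_EU _, n.symm⟩
    · refine mem_image.2 ⟨_, mem_EU.2 (.inr ⟨(U.erase (blk x)).equivFin ⟨ℓ, mem_erase.2 ⟨n, k⟩⟩,
        rfl⟩), ?_⟩
      exact congrArg Subtype.val ((U.erase (blk x)).equivFin.injective (e.2 _))

theorem EU_card (h : blk x ∈ U) (e : JU blk x U) : #(EU x e.1) = #U := by
  rw [← card_image_of_injOn (EU_inj e), EU_img h]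

theorem EU_one {e e' : JU blk x U} (k : EU x e.1 = EU x e'.1) : e = e' := by
  refine Subtype.ext (funext fun i => ?_)
  rcases mem_EU.1 (k ▸ mem_EU.2 (.inr ⟨i, rfl⟩) : (e.1 i).1 ∈ EU x e'.1) with a | ⟨j, a⟩
  · exact absurd (congrArg blk a) (KU_ne _)
  · have b := Subtype.ext a
    rw [← b, ← e.2 i, ← b, e'.2]

theorem EU_sur {A : Finset τ} (hA : Set.InjOn blk A) (hx : x ∈ A) (k : A.image blk = U) :
    ∃ e : JU blk x U, EU x e.1 = A := by
  have p : ∀ i : Fin (lU blk x U), ∃ a : KU blk x U, a.1 ∈ A ∧ bU blk x U a = i := fun i => by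
    obtain ⟨ℓ, rfl⟩ := (U.erase (blk x)).equivFin.surjective i
    obtain ⟨a, ha, b⟩ := mem_image.1 (k ▸ (mem_erase.1 ℓ.2).2 : ℓ.1 ∈ A.image blk)
    exact ⟨⟨a, b ▸ ℓ.2⟩, ha, congrArg (U.erase (blk x)).equivFin (Subtype.ext b)⟩
  choose e p q using p
  refine ⟨⟨e, q⟩, ?_⟩
  ext a
  refine ⟨fun z => ?_, fun z => mem_EU.2 ?_⟩
  · rcases mem_EU.1 z with rfl | ⟨i, rfl⟩
    exacts [hx, p i]
  · by_cases n : blk a = blk x
    · exact .inl (hA z hx n)
    · have m : blk a ∈ U.erase (blk x) := mem_erase.2 ⟨n, k ▸ mem_image_of_mem _ z⟩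
      exact .inr ⟨bU blk x U ⟨a, m⟩, hA (p _) z (bU_eq.1 (q _))⟩

theorem card_KU : Fintype.card (KU blk x U) ≤ Fintype.card τ := Fintype.card_subtype_le _

theorem card_JU : Fintype.card (JU blk x U) ≤ Fintype.card τ ^ lU blk x U := by
  refine (Fintype.card_subtype_le _).trans ?_
  rw [Fintype.card_fun, Fintype.card_fin]
  exact Nat.pow_le_pow_left card_KU _

variable {s : ℕ} {W : Finset (Finset τ)} {I : Type} [Fintype I] [DecidableEq I]

theorem lU_lt (h : Al s W blk x) (hx : blk x ∈ U) : lU blk x U + 1 = #U ∧ #U ≤ s :=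
  ⟨card_erase_add_one hx, (card_le_univ _).trans h.cL⟩

theorem EU_W (h : Al s W blk x) (e : JU blk x U) : EU x e.1 ∈ W := (h.mem _).2 (EU_inj e)

theorem gq_w (ec : I → JU blk x U) (mc : ℕ) (e : JU blk x U) :
    (gq x W ec mc).w e.1 = wE (EU x e.1) := by
  rw [wE, EU, sum_insert, sum_image fun i _ j _ k => JU_inj e k]
  · rfl
  · intro k
    obtain ⟨i, _, a⟩ := mem_image.1 k
    exact KU_ne _ (congrArg blk a)

theorem gq_ok (h : Al s W blk x) (ec : I → JU blk x U) (mc : ℕ) : (gq x W ec mc).Ok s := by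
  have two : ∀ a b, blk a = blk b → Finsupp.single a 1 + Finsupp.single b 1 ∉ W.image ind :=
    fun a b e k => by
      have := (mem_W h).1 k (blk b)
      simp [Finsupp.mapDomain_add, Finsupp.mapDomain_single, e] at this
  refine ⟨Subtype.val_injective, fun k a => KU_ne k (congrArg blk a), fun c => (ec c).2,
    fun μ a ν b => (mem_W h).2 fun ℓ => (Finsupp.mapDomain_mono b ℓ).trans ((mem_W h).1 a ℓ),
    fun a => (mem_W h).2 fun ℓ => ?_, fun μ k => ?_, fun k k' e => two _ _ (bU_eq.1 e),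
    two _ _ rfl, fun c => ?_⟩
  · rw [Finsupp.mapDomain_single, Finsupp.single_apply]; split_ifs <;> simp
  · obtain ⟨A, a, rfl⟩ := mem_image.1 k
    rw [← wE_ind, wE, map_sum]
    simp only [Finsupp.degree_single, sum_const, smul_eq_mul, mul_one]
    rw [← card_image_of_injOn ((h.mem _).1 a)]
    exact (card_le_univ _).trans h.cL
  · exact mem_image.2 ⟨_, EU_W h (ec c), ((gq_w ec mc (ec c)).trans (wE_ind _)).symm⟩

variable {q q' : Finset L → Prop}

/-- the words with the blocks `U` are maximal -/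
theorem max_word (r : Rmv q q' U) (hx : blk x ∈ U) (e : JU blk x U) (μ : τ →₀ ℕ)
    (a : q (μ.mapDomain blk).support) (b : ∀ ℓ, μ.mapDomain blk ℓ ≤ 1) (c : wE (EU x e.1) ≤ μ) :
    μ = wE (EU x e.1) := by
  have m := Finsupp.mapDomain_mono (f := blk) c
  rw [wE_ind, ind_md (EU_inj e), EU_img hx] at m
  have u : (μ.mapDomain blk).support = U :=
    (r.or _ a).resolve_left fun k => r.top _ k (Finsupp.support_mono m)
  obtain ⟨b1, b2⟩ := Kq.md_le b
  have v : EU x e.1 ⊆ μ.support := Finsupp.support_mono (wE_ind (EU x e.1) ▸ c)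
  rw [b1, wE_ind, (eq_of_subset_of_card_le v ?_).symm]
  rw [EU_card hx, ← u, ← card_image_of_injOn b2]
  conv_rhs => rw [b1, ind_md b2]
  rfl

variable {C : Type} {B : Bk (VV C τ) τ} {Γ : MvPolynomial (VV C τ ⊕ B.N) ℝ}

theorem cw_hom (E : Finset τ) : (cw B E Γ).IsWeightedHomogeneous (B.wg Prod.snd) (wE E) :=
  weightedHomogeneousComponent_isWeightedHomogeneous _ _

theorem cw_coeff (E : Finset τ) (m : VV C τ ⊕ B.N →₀ ℕ) : coeff m (cw B E Γ) =
    if Finsupp.weight (B.wg Prod.snd) m = wE E then coeff m Γ else 0 := by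
  classical
  rw [cw, coeff_weightedHomogeneousComponent]

theorem vars_sub {σ : Type} {P Q : MvPolynomial σ ℝ} (h : P.support ⊆ Q.support) {v : σ}
    (k : v ∈ P.vars) : v ∈ Q.vars := by
  obtain ⟨m, a, b⟩ := (mem_vars_iff_mem_support v).1 k
  exact (mem_vars_iff_mem_support v).2 ⟨m, h a, b⟩

theorem cw_sup (E : Finset τ) : (cw B E Γ).support ⊆ Γ.support := fun m k => by
  rw [mem_support_iff, cw_coeff] at k
  exact mem_support_iff.2 fun z => k (by simp [z])

theorem cw_tyf {p : (τ →₀ ℕ) → Prop} (t : Tyf blk x B p Γ) (E : Finset τ) :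
    Tyf blk x B (· = wE E) (cw B E Γ) :=
  ⟨fun v k => t.live v (vars_sub (cw_sup E) k), fun m k => ⟨(t.ty m (cw_sup E k)).1,
    (t.ty m (cw_sup E k)).2.1, cw_hom E (mem_support_iff.1 k)⟩⟩

/-- **the rest of the form** -/
theorem rest_tyf (r : Rmv q q' U) (t : Tyf blk x B (fun w => q (w.mapDomain blk).support) Γ) :
    Tyf blk x B (fun w => q' (w.mapDomain blk).support)
      (Γ - ∑ e : JU blk x U, cw B (EU x e.1) Γ) := by
  have key : ∀ m ∈ (Γ - ∑ e : JU blk x U, cw B (EU x e.1) Γ).support, m ∈ Γ.support ∧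
      ∀ e : JU blk x U, Finsupp.weight (B.wg Prod.snd) m ≠ wE (EU x e.1) := fun m k => by
    rw [mem_support_iff, coeff_sub, coeff_sum] at k
    simp only [cw_coeff] at k
    refine ⟨mem_support_iff.2 fun z => k (by simp [z]), fun e z => k ?_⟩
    rw [sum_eq_single e (fun e' _ n => if_neg fun y => n (EU_one ?_)) (by simp), if_pos z, sub_self]
    exact ind_inj (by rw [← wE_ind, ← wE_ind, ← y, z])
  refine ⟨fun v k => t.live v (vars_sub (fun m a => (key m a).1) k), fun m k => ?_⟩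
  obtain ⟨a, b, c⟩ := t.ty m (key m k).1
  refine ⟨a, b, (r.or _ c).resolve_right fun u => ?_⟩
  obtain ⟨b1, b2⟩ := Kq.md_le a
  obtain ⟨e, z⟩ := EU_sur (U := U) (x := x) b2 (by simp [b]) (by
    rw [← u]; conv_rhs => rw [b1, ind_md b2]
    rfl)
  exact (key m k).2 e (by rw [wE_ind, z]; exact b1)

theorem gq_E (ec : I → JU blk x U) (mc : ℕ) (j : I) : (gq x W ec mc).E j = EU x (ec j).1 :=
  (congrArg Finsupp.support ((gq_w ec mc (ec j)).trans (wE_ind _))).trans rfl

/-- the forms of the step -/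
theorem gq_ty {T : TS Unit} {B : Bk (VV T.C τ) τ} {p : (τ →₀ ℕ) → Prop} (h : Al s W blk x)
    (ec : I → JU blk x U) (mc : ℕ) {Γ : I → MvPolynomial (VV T.C τ ⊕ B.N) ℝ} (b : Tyd blk x B)
    (t : ∀ j, Tyf blk x B p (Γ j)) :
    (gq x W ec mc).Ty T B fun j => cw B ((gq x W ec mc).E j) (Γ j) :=
  ⟨fun μ k a => (Et.le_md blk μ a).trans ((mem_W h).1 k _), b.bo,
    fun a => ⟨(mem_W h).2 (b.tr a), b.fr a⟩,
    fun j => by rw [gq_E]; exact (gq_w (W := W) ec mc (ec j)).symm ▸ cw_hom _,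
    fun j => (cw_tyf (t j) _).live⟩
end geo

end Crest.Agent.N49.St

end
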