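import Crest.Agent.N49.St.Defs
import Crest.Agent.N49.Pk.Defs

/-!
# Row 49 (helper73): the second half of a step from the packing
-/

set_option autoImplicit false

open MvPolynomial Finset

noncomputable section

namespace Crest.Agent.N49.St

open Tw Rm Md Sw Sd Sy Su

/-- the geometry of the step is the one of the packing -/
theorem gg_gU {τ L : Type} [Fintype τ] [DecidableEq τ] [Fintype L] [DecidableEq L] {s : ℕ}
    {W : Finset (Finset τ)} {blk : τ → L} {x : τ} {U : Finset L} (D : Type) [Fintype D]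
    [DecidableEq D] (al : Al s W blk x) (hx : blk x ∈ U) :
    Pk.Gg s W blk U (gU W blk x U D) Prod.fst := by
  have e : ∀ j : D × JU blk x U, (gU W blk x U D).E j = EU x j.2.1 := fun j => gq_E _ _ j
  have l := lU_lt al hx
  refine ⟨al, gq_ok al _ _, by omega, rfl, rfl,
    fun a => ⟨fun ⟨k, h⟩ => h ▸ k.2, fun h => ⟨⟨a, h⟩, rfl⟩⟩, hx,
    fun j => ?_, fun d A hA k => ?_⟩
  · rw [e]; exact ⟨EU_W al _, EU_img hx _⟩
  · obtain ⟨a, ha, b⟩ := mem_image.1 (k ▸ hx : blk x ∈ A.image blk)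
    obtain ⟨j, z⟩ := EU_sur (U := U) (x := x) ((al.mem A).1 hA) (al.one a b ▸ ha) k
    exact ⟨(d, j), ⟨rfl, (e _).trans z⟩, fun j' h =>
      Prod.ext h.1 (EU_one (((e j').symm.trans h.2).trans z.symm))⟩

/-- **PACK from PK** -/
theorem pack {s M : ℕ} (h : Pk.PK s M) : PACK s M := by
  obtain ⟨e, h⟩ := h
  refine ⟨(s + 1 + s.factorial) * e, tM M, fun K' => ?_⟩
  obtain ⟨K, h⟩ := h K'
  refine ⟨(s + 1 + s.factorial) * K, ?_⟩
  intro τ L D _ _ _ _ _ _ B W blk x F H Bt Γ q q' U n sb hM al r hx cD dat ty cB tf rel rg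
    ⟨w, κ0, b, κ', o, a1, _, a3, a4, _, a6, a7⟩
  have n2 := sb.two
  have l := lU_lt al hx
  have u : n ≤ n ^ (s + 1 + s.factorial) := Nat.le_self_pow (by omega) _
  have v : (2 : ℝ) ^ n ≤ 2 ^ n ^ (s + 1 + s.factorial) := pow_le_pow_right₀ one_le_two u
  have v' : (1 : ℝ) / 2 ^ n ^ (s + 1 + s.factorial) ≤ 1 / 2 ^ n :=
    one_div_le_one_div_of_le (by positivity) v
  have c1 : (lU blk x U + 1).factorial ≤ n ^ (s + 1 + s.factorial) :=
    (Nat.factorial_le (by omega : _ ≤ s)).trans (Nat.lt_two_pow_self.le.trans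
      ((Nat.pow_le_pow_left n2 _).trans (Nat.pow_le_pow_right (by omega) (by omega))))
  have c2 : Fintype.card (D × JU blk x U) ≤ n ^ (s + 1 + s.factorial) := by
    rw [Fintype.card_prod]
    refine (Nat.mul_le_mul cD (card_JU.trans (Nat.pow_le_pow_left sb.cτ _))).trans ?_
    rw [← pow_succ']
    exact Nat.pow_le_pow_right (by omega) (by omega)
  obtain ⟨f, H', b1, b2, b3, b4, b5, b6, b7, b8, b9⟩ := h τ L D _ _ _ _ B W blk (gU W blk x U D) H F
    Bt Γ q q' U Prod.fst w κ0 b (2 ^ n) _ (H0 B W blk H) κ' o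
    (Mv.Sb.mono sb u) hM
    (gg_gU D al hx) r c1 (cD.trans u) c2 (card_KU.trans (sb.cτ.trans u)) a1 (v'.trans a3) a4 a6 v
    (by rwa [← pow_mul]) ⟨dat, ty, cB.trans u, tf, fun y hy a => (rel y hy a).mono v⟩
    (fun y hy => hy) (v'.trans a7)
  rw [pow_mul]
  exact ⟨f, _, H', b1, b2.le, b3, b4, b5,
    Un.rg_mono b1.old.stg b6 (Nat.pow_le_pow_left u _), b7, b8, b9⟩

end Crest.Agent.N49.St

end
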