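import Crest.Agent.N49.St.Step2
import Crest.Agent.N49.St.Pack
import Crest.Agent.N49.Su.Subq
import Crest.Agent.N49.Su.Subn
import Crest.Agent.N49.Su.Ewq
import Crest.Agent.N49.Su.Biw
import Crest.Agent.N49.Su.Rxw
import Crest.Agent.N49.Su.Ptq
import Crest.Agent.N49.Su.Perr
import Crest.Agent.N49.Su.Dsq
import Crest.Agent.N49.Sw.Dec
import Crest.Agent.N49.Sw.Inb2
import Crest.Agent.N49.Sw.Mri
import Crest.Agent.N49.Sw.Datv
import Crest.Agent.N49.Wf.Witg

/-!
# Row 49 (helper98): the step of the symmetrisation from the open statements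
-/

set_option autoImplicit false

namespace Crest.Agent.N49.St

open Su

theorem subA (s M : ℕ) : SUBN s M := subn (subq ewq (biw ewq) rxw ptq perr (dsq ewq)) s M

theorem midA {s d : ℕ} (wf : Wf.WITF s d) (tw : Sw.TWB) : MID s d :=
  mid (wt2 (Wf.witg wf) Sw.datv) (Sw.S0.swap0 (Sw.dec Sw.inb2 Sw.mri) tw) (subA s)

/-- **the step** -/
theorem stepA {s d : ℕ} (wf : Wf.WITF s d) (tw : Sw.TWB) (pk : ∀ M, Pk.PK s M) : Sd.STEPL s d :=
  step2 (midA wf tw) fun M => pack (pk M)

end Crest.Agent.N49.St
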