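import Crest.Agent.N49.St.All
import Crest.Agent.N49.Pk.All
import Crest.Agent.N49.Pk.Pk2b

/-!
# Row 49 (helper98): the step of the symmetrisation from the witness and the two boxes
-/

set_option autoImplicit false

namespace Crest.Agent.N49.St

theorem stepB {s d : ℕ} (wf : Wf.WITF s d) (tw : Sw.TWB) : Sd.STEPL s d :=
  stepA wf tw fun M => Pk.pkA (Pk.pk2A s M)

end Crest.Agent.N49.St
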