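import Crest.Agent.N49.Sd.Sy0
import Crest.Agent.N49.Sd.Tl
import Crest.Agent.N49.Md.Syu

/-!
# Row 49 (helper98): the step may assume that the size is large; the entry of the step
-/

set_option autoImplicit false

open Finset

noncomputable section

namespace Crest.Agent.N49.St

open Tw Rm Md Sw Sd Sy

section big
variable {O : Type 1} {s d : ℕ} {ok : O → Prop} {cx : O → Kx d}

theorem pre_up {o : O} {f : (cx o).Fr} {H : Set (f.X → ℤ)} {n n' Y M K K' : ℕ}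
    (p : Pre s ok cx o f H n Y M K) (e : n ≤ n') (k : n' ^ K' ≤ n ^ K) :
    Pre s ok cx o f H n' Y M K' :=
  ⟨p.ok, p.c, p.le.trans e, p.fo.mono e, p.M, Un.rg_mono p.fo.ok.old.stg p.rg k,
    ⟨p.sz.1.trans e, p.sz.2.1.trans (Nat.pow_le_pow_right two_pos e),
      (pow_le_pow_of_le_one (by norm_num) (by norm_num) e).trans p.sz.2.2⟩, p.ov⟩

variable (s ok cx) in
/-- the conclusion of a step -/
def Out (P' : Pp d) (o : O) (f : (cx o).Fr) (H : Set (f.X → ℤ)) (n e M' K' K : ℕ) : Prop :=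
  ∃ (f' : Md.Fr f.T (Lx d (cx o).Q) (Lb d)) (ν : ℕ)
    (H' : Set (f'.SC (Wt d (cx o).Q) → ℤ)) (n' : ℕ), n ≤ n' ∧ n' ≤ n ^ e ∧ f'.Ok s (n ^ K) ∧
    f'.M ≤ M' ∧ f'.θ.St f.st f'.st ∧ f'.Fw ν (n' - n) ∧ Fintype.card f'.T.C ≤ 2 ^ n' ∧
    f'.Rg 1 (n' ^ K') (1 / 2 ^ n' ^ K') (1 / 2 ^ n' ^ K') ∧ Rm.Sz n' (f'.SY (Wt d (cx o).Q) bk) H' ∧
    Ov (ka f.toBs (Wt d (cx o).Q) bk f') H' H ∧ P' (cx o) (f.cp f') H' n'

variable (s ok cx) in
/-- steps for large sizes -/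
def Stb (P P' : Pp d) : Prop := ∀ M, ∃ n0 e M', ∀ K', ∃ K, ∀ o f H n Y, n0 ≤ n →
  Pre s ok cx o f H n Y M K → P (cx o) f H n → Out s cx P' o f H n e M' K' K

/-- **a step may assume that the size is large** -/
theorem Stb.stp {P P' : Pp d} (up : P.Up) (h : Stb s ok cx P P') : Stp s ok cx P P' := fun M => by
  obtain ⟨n0, e, M', h⟩ := h M
  refine ⟨(n0 + 1) * e, M', fun K' => ?_⟩
  obtain ⟨K, h⟩ := h K'
  refine ⟨(n0 + 1) * K, fun o f H n Y p a => ?_⟩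
  have h2 : 2 ≤ n := p.sz.1
  have u : n ≤ n ^ (n0 + 1) := Nat.le_self_pow (by omega) _
  have v : n0 ≤ n ^ (n0 + 1) := (Nat.lt_two_pow_self.le.trans
    (Nat.pow_le_pow_right two_pos (Nat.le_succ _))).trans (Nat.pow_le_pow_left h2 _)
  obtain ⟨f', ν, H', n', b1, b2, b3, b4, b5, b6, b7⟩ := h o f H _ Y v
    (pre_up p u (pow_mul n _ K).ge) (up _ _ _ _ _ u a)
  exact ⟨f', ν, H', n', u.trans b1, by rwa [pow_mul], by rwa [pow_mul], b4, b5,
    b6.mono (by omega), b7⟩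

theorem as0_up (q : Finset (Lb d) → Prop) : (AS0 d q).Up :=
  fun _ _ _ _ _ e ⟨l, Bt, Γ, a1, a2, a3, a4⟩ => ⟨l, Bt, Γ, a1, a2.trans e, a3,
    fun y hy a => (a4 y hy a).mono (pow_le_pow_right₀ one_le_two e)⟩
end big

/-- exponentials beat polynomials -/
theorem exp_beats (e c : ℕ) : ∃ n0 : ℕ, ∀ n, n0 ≤ n → (n ^ e + 2) ^ c ≤ 2 ^ n := by
  obtain ⟨n0, h⟩ := Filter.eventually_atTop.1 ((tendsto_pow_const_div_const_pow_of_one_lt
    ((e + 2) * c) (one_lt_two (α := ℝ))).eventually (gt_mem_nhds one_pos))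
  refine ⟨n0 + 2, fun n hn => ?_⟩
  have a : n ^ e + 2 ≤ n ^ (e + 2) := by
    have : 1 ≤ n ^ e := Nat.one_le_pow _ _ (by omega)
    have : 4 ≤ n ^ 2 := by nlinarith
    rw [pow_add]; nlinarith
  have b := h n (by omega)
  rw [div_lt_one (by positivity), pow_mul] at b
  exact (Nat.pow_le_pow_left a c).trans (by exact_mod_cast b.le)

section entry
variable {τ L : Type} [Fintype τ] [DecidableEq τ] [Fintype L] [DecidableEq L]

theorem tb_of {B : Bs L} {s h : ℕ} (o : B.Ok s h) : Tb B.T B.st B.M s :=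
  ⟨o.old.ok, o.old.stg, o.old.lev, o.old.one⟩

/-- the kernel of the symbol ring -/
def kz (blk : τ → L) (la : L → ℝ) (μ : τ →₀ ℕ) : ℝ := (Md.kw blk la μ ^ 2)⁻¹

theorem kz_bd {blk : τ → L} {la : L → ℝ} {h : ℕ} (h1 : ∀ l, 1 ≤ la l) (h2 : ∀ l, la l ≤ 2 ^ h)
    (μ : τ →₀ ℕ) : 1 / 2 ^ (2 * h * Fintype.card τ) ≤ kz blk la μ ∧ kz blk la μ ≤ 1 := by
  have a : 1 ≤ Md.kw blk la μ := by
    simpa [Md.kw] using prod_le_prod (s := μ.support) (fun _ _ => zero_le_one) fun a _ => h1 (blk a)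
  have b : Md.kw blk la μ ≤ 2 ^ (h * Fintype.card τ) := by
    refine (prod_le_prod (fun a _ => zero_le_one.trans (h1 _)) fun a _ => h2 (blk a)).trans ?_
    rw [prod_const, ← pow_mul]
    exact pow_le_pow_right₀ one_le_two (Nat.mul_le_mul_left _ (card_le_univ _))
  refine ⟨?_, inv_le_one_of_one_le₀ (one_le_pow₀ a)⟩
  rw [one_div, mul_assoc, mul_comm 2, pow_mul]
  exact inv_anti₀ (by positivity) (pow_le_pow_left₀ (by linarith) b 2)

/-- the set on the symbol ring -/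
def H0 (B : Bs L) (W : Finset (Finset τ)) (blk : τ → L) (H : Set (B.SC W → ℤ)) :
    Set (B.T.Cw (MR (fun _ => ()) (W.image ind) (dk (kz blk B.la))) → ℤ) :=
  {y | (fun w : B.SC W => ex B.T _ id y (w.1.1, ind w.1.2)) ∈ H}

theorem H0_P {B : Bs L} {W : Finset (Finset τ)} {blk : τ → L} {s h : ℕ} (o : B.Ok s h)
    (w : Wf s W blk) (H : Set (B.SC W → ℤ)) :
    (B.T.sh _).P (H0 B W blk H) = (B.SY W blk).pr H := by
  have k : ∀ (S : Sh Unit τ) (A : Set (B.T.Cw S → ℤ)),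
      (B.T.tw S (B.T.tw0 S)).P A = (B.T.sh S).P A := fun S A =>
    congrArg (fun Φ => ((B.T.sh S).setΦ Φ).P A)
      (funext fun p => congrArg (S.cf _ p.1.2) (TS.eval₂_tw0 _ _))
  exact ((syp τ L B W blk s h H o w).trans (k _ _)).symm
end entry

end Crest.Agent.N49.St

end
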