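import Crest.Agent.N49.St.Big
import Crest.Agent.N49.St.Geo

/-!
# Row 49 (helper15): the two halves of a step of the symmetrisation (FROZEN statements)
-/

set_option autoImplicit false

open MvPolynomial Finset

noncomputable section

namespace Crest.Agent.N49.St

open Tw Rm Md Sw Sd Sy Su

section
variable {τ L : Type} [Fintype τ] [DecidableEq τ] [Fintype L] [DecidableEq L]

/-- the geometry of the step -/
abbrev gU (W : Finset (Finset τ)) (blk : τ → L) (x : τ) (U : Finset L) (D : Type) :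
    Gq τ (D × JU blk x U) (KU blk x U) (lU blk x U) :=
  gq x W Prod.snd (lU blk x U + 1).factorial

/-- **the output of the substitution step**, of size `n` -/
def Sub0 (s : ℕ) (B : Bs L) (W : Finset (Finset τ)) (blk : τ → L) (x : τ) (U : Finset L) {D : Type}
    (H : Set (B.SC W → ℤ)) (Bt : Bk (VV B.T.C τ) τ)
    (Γ : D → MvPolynomial (VV B.T.C τ ⊕ Bt.N) ℝ) (n : ℕ) : Prop :=
  ∃ (w κ0 b : ℝ) (κ' : (τ ⊕ KU blk x U × Bool →₀ ℕ) → ℝ)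
    (o : (sp Bt (gU W blk x U D).cl ((gU W blk x U D).W' s)).N → ℝ), 1 ≤ w ∧ w ≤ 2 ^ n ∧
    1 / 2 ^ n ≤ b ∧ b ≤ κ0 ∧ κ0 ≤ 1 ∧ (∀ μ, b ≤ κ' μ ∧ κ' μ ≤ 1) ∧
    1 / 2 ^ n ≤ (B.T.sh (MR (fun _ => ()) ((gU W blk x U D).W' s) (dk κ'))).P
      {y | ∃ k Y, (gU W blk x U D).Oq s B.T Bt
        (fun j => cw Bt ((gU W blk x U D).E j) (Γ j.1)) w κ0 b (2 ^ n) _ (H0 B W blk H) _ o y k Y}
end

/-- **first half**: witness, swap, substitution -/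
def MID (s d : ℕ) : Prop := ∀ M : ℕ, ∃ e K : ℕ, ∀ (ε : ℝ) (q q' : Finset (Lb d) → Prop)
  (U : Finset (Lb d)) (o : Og s d) (f : o.cx.Fr) (H : Set (f.X → ℤ)) (n Y : ℕ)
  (Bt : Bk (VV f.T.C (Lx d o.Q)) (Lx d o.Q))
  (Γ : Fin o.D → MvPolynomial (VV f.T.C (Lx d o.Q) ⊕ Bt.N) ℝ), Rmv q q' U → 0 ∈ U →
  Pre s (fun o => o.Ok ε) Og.cx o f H n Y M K → (∀ l, 1 ≤ f.la l) → Tyd bk none Bt →
  Fintype.card Bt.N ≤ n → (∀ a, Tyf bk none Bt (fun w => q (w.mapDomain bk).support) (Γ a)) →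
  (∀ y ∈ H, ∀ a, f.S.Rel univ {0} y 1 (2 ^ n) fun p =>
    f.F a p - Bt.ev (uv f.toBs (Wt d o.Q) p) (Γ a)) →
  Sub0 s f.toBs (Wt d o.Q) bk none U H Bt Γ (n ^ e)

/-- **second half**: freeze the centres, pack the new state -/
def PACK (s M : ℕ) : Prop := ∃ e M' : ℕ, ∀ K' : ℕ, ∃ K : ℕ, ∀ (τ L D : Type) [Fintype τ]
  [DecidableEq τ] [Fintype L] [DecidableEq L] [Fintype D] [DecidableEq D] (B : Bs L)
  (W : Finset (Finset τ)) (blk : τ → L) (x : τ) (F : D → Fm L (B.SC W)) (H : Set (B.SC W → ℤ))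
  (Bt : Bk (VV B.T.C τ) τ) (Γ : D → MvPolynomial (VV B.T.C τ ⊕ Bt.N) ℝ)
  (q q' : Finset L → Prop) (U : Finset L) (n : ℕ), Mv.Sb B W blk s n → B.M = M → Al s W blk x →
  Rmv q q' U → blk x ∈ U → Fintype.card D ≤ n → (∀ a, (B.SY W blk).Dat univ {blk x} (F a)) →
  Tyd blk x Bt → Fintype.card Bt.N ≤ n →
  (∀ a, Tyf blk x Bt (fun w => q (w.mapDomain blk).support) (Γ a)) →
  (∀ y ∈ H, ∀ a, (B.SY W blk).Rel univ {blk x} y 1 (2 ^ n) fun p =>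
    F a p - Bt.ev (uv B W p) (Γ a)) →
  B.Rg 1 (n ^ K) (1 / 2 ^ n ^ K) (1 / 2 ^ n ^ K) → Sub0 s B W blk x U H Bt Γ n →
  ∃ (f : Fr B.T τ L) (ν : ℕ) (H' : Set (f.SC W → ℤ)), f.Ok s (n ^ e) ∧ f.M ≤ M' ∧
    f.θ.St B.st f.st ∧ f.Fw ν (n ^ e) ∧ Fintype.card f.T.C ≤ 2 ^ n ^ e ∧
    f.Rg 1 (n ^ K') (1 / 2 ^ n ^ K') (1 / 2 ^ n ^ K') ∧ 1 / 2 ^ n ^ e ≤ (f.SY W blk).pr H' ∧
    Ov (ka B W blk f) H' H ∧
    AS s f.toBs W blk x (fun a p => F a (ka B W blk f p)) H' (n ^ e) q'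

end Crest.Agent.N49.St

end
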