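import Crest.Agent.N49.Wf.Df2
import Crest.Agent.N49.Sw.Df5
import Crest.Agent.N49.Sd.Syl

/-!
# Row 49 (helper14): the witness for a typed form, without pending families
-/

set_option autoImplicit false

open Matrix MvPolynomial Finset

noncomputable section

namespace Crest.Agent.N49.St

open Po Tw Br N49.Top Sd Sy Md Rm Sw Wf

/-- **the witness of the swap** -/
def WT2 (s d : ℕ) : Prop := ∀ M : ℕ, ∃ e0 : ℕ, ∀ e, e0 ≤ e → ∃ K : ℕ, ∀ (ε : ℝ) (o : Og s d)
  (f : o.cx.Fr) (H : Set (f.X → ℤ)) (n Y : ℕ), Pre s (fun o => o.Ok ε) Og.cx o f H n Y M K →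
  ∀ (Bt : Bk (VV f.T.C (Lx d o.Q)) (Lx d o.Q))
    (Γ : MvPolynomial (VV f.T.C (Lx d o.Q) ⊕ Bt.N) ℝ) (q : (Lx d o.Q →₀ ℕ) → Prop) (a : Fin o.D)
    (t : Lx d o.Q), Tyd bk none Bt → Tyf bk none Bt q Γ →
    (∀ y ∈ H, f.S.Rel univ {0} y 1 (2 ^ n) fun p =>
      f.F a p - Bt.ev (uv f.toBs (Wt d o.Q) p) Γ) → t ≠ none →
    Wt2 s f.T f.st (Wt d o.Q) none t (1 / 2 ^ n ^ e) Bt Γ (1 / 2 ^ (3 * n + 5))

namespace W2

section pt
variable {Λ : Type} [Fintype Λ] [DecidableEq Λ] {s : ℕ} {κ : ℝ} (T : TS Unit) {χ : Λ → ℤ}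

theorem one (F : T.C) (c : Λ) (ν : Λ →₀ ℕ) (r : ℤ) :
    ∑ p : T.Cw (FR Λ s κ) with p.1.1 = F, fp s κ χ p.1.2 * coeff p.1.2.1 (X c * monomial ν r) =
      if 1 + ν.degree ≤ s ∧ Finsupp.single () 1 + ν.mapDomain (fun _ => ()) = T.deg F then
        χ c * (ν.prod fun a n => χ a ^ n) * r else 0 := by
  have e : (X c * monomial ν r : MvPolynomial Λ ℤ) = monomial (Finsupp.single c 1 + ν) r := by
    rw [X, monomial_mul, one_mul]
  have dg : (Finsupp.single c 1 + ν).degree = 1 + ν.degree := by simp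
  have cd : (Finsupp.single c 1 + ν).mapDomain (fun _ => ()) =
      Finsupp.single () 1 + ν.mapDomain (fun _ => ()) := by
    rw [Finsupp.mapDomain_add, Finsupp.mapDomain_single]
  rw [e]
  split_ifs with h
  · have m : Finsupp.single c 1 + ν ∈ (full Λ s).erase 0 := mem_erase.2
      ⟨fun z => by rw [z, map_zero] at dg; omega, Tw.mem_full.2 (dg ▸ h.1)⟩
    rw [sum_eq_single_of_mem (⟨(F, ⟨_, m⟩), cd.trans h.2⟩ : T.Cw (FR Λ s κ)) (by simp)
      fun p a n => by
        rw [coeff_monomial, if_neg fun z => n (Subtype.ext (Prod.ext (mem_filter.1 a).2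
          (Subtype.ext z.symm))), mul_zero]]
    change (Finsupp.single c 1 + ν).prod (fun a n => χ a ^ n) * coeff (Finsupp.single c 1 + ν) _ = _
    rw [coeff_monomial, if_pos rfl, Finsupp.prod_add_index' (fun _ => pow_zero _)
      fun _ _ _ => pow_add _ _ _, Finsupp.prod_single_index (h := fun a n => χ a ^ n) (pow_zero _),
      pow_one]
  · refine sum_eq_zero fun p a => ?_
    rw [coeff_monomial, if_neg fun z => h ⟨?_, ?_⟩, mul_zero]
    · rw [← dg, z]; exact Tw.mem_full.1 (mem_of_mem_erase p.1.2.2)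
    · rw [← cd, z, ← (mem_filter.1 a).2]; exact p.2

theorem pw_inv {a b : Λ} (e : χ a = χ b) {y y' : T.Cw (FR Λ s κ) → ℤ}
    (m : Sw.Md T _ (Pi.single a 1 - Pi.single b 1) y y') :
    T.pw _ (fp s κ χ) y = T.pw _ (fp s κ χ) y' := by
  obtain ⟨Q, hQ⟩ := m
  funext F
  have L : (∑ c, (Pi.single a 1 - Pi.single b 1 : Λ → ℤ) c • X c : MvPolynomial Λ ℤ) =
      X a - X b := by simp [sub_smul, sum_sub_distrib, Pi.single_apply]
  have z : ∀ P : MvPolynomial Λ ℤ, ∑ p : T.Cw (FR Λ s κ) with p.1.1 = F,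
      fp s κ χ p.1.2 * coeff p.1.2.1 ((X a - X b) * P) = 0 := fun P => by
    induction P using MvPolynomial.induction_on' with
    | monomial ν r => simp only [sub_mul, coeff_sub, mul_sub, sum_sub_distrib, one, e, sub_self]
    | add P P' h h' => simp only [mul_add, coeff_add, sum_add_distrib, h, h', add_zero]
  rw [← sub_eq_zero, TS.pw, TS.pw, ← sum_sub_distrib]
  refine (sum_congr rfl fun p m => ?_).trans (z (Q F))
  rw [← mul_sub, hQ, L, (mem_filter.1 m).2]; rfl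

theorem pw_bl {a : Λ} (e : χ a = 0) {y y' : T.Cw (FR Λ s κ) → ℤ}
    (m : ∀ p, p.1.2.1 a = 0 → y p = y' p) : T.pw _ (fp s κ χ) y = T.pw _ (fp s κ χ) y' :=
  funext fun F => sum_congr rfl fun p _ => by
    by_cases k : p.1.2.1 a = 0
    · rw [m p k]
    · have : fp s κ χ p.1.2 = 0 := prod_eq_zero (Finsupp.mem_support_iff.2 k)
        (by beta_reduce; rw [e, zero_pow k])
      rw [this, zero_mul, zero_mul]
end pt

section ty
variable {τ L : Type} [Fintype τ] [DecidableEq τ] [Fintype L] [DecidableEq L] {blk : τ → L}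

theorem tr_ind {μ : τ →₀ ℕ} (h : ∀ ℓ, μ.mapDomain blk ℓ ≤ 1) :
    ind μ.support = μ ∧ Set.InjOn blk μ.support := by
  refine ⟨Finsupp.ext fun a => ?_, fun a ha b hb e => by_contra fun n => ?_⟩
  · have := (Et.le_md blk μ a).trans (h _)
    rw [ind_apply]
    simp only [Finsupp.mem_support_iff]
    split_ifs <;> omega
  · have a1 := Finsupp.mem_support_iff.1 ha
    have b1 := Finsupp.mem_support_iff.1 hb
    have k : Finsupp.single a 1 + Finsupp.single b 1 ≤ μ := fun c => by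
      simp only [Finsupp.add_apply, Finsupp.single_apply]
      split_ifs with u v v
      · exact absurd (u.trans v.symm) n
      · subst u; omega
      · subst v; omega
      · omega
    have := (Finsupp.mapDomain_mono (f := blk) k (blk a)).trans (h _)
    simp [Finsupp.mapDomain_add, e] at this

/-- typed forms only see transversal words -/
theorem ev_ty {C : Type} {x : τ} {Bt : Bk (VV C τ) τ} {q : (τ →₀ ℕ) → Prop}
    {Γ : MvPolynomial (VV C τ ⊕ Bt.N) ℝ} (b : Bo Bt) (g : Tyf blk x Bt q Γ) {z z' : VV C τ → ℝ}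
    (h : ∀ F (A : Finset τ), Set.InjOn blk A → z (F, ind A) = z' (F, ind A)) :
    Bt.ev z Γ = Bt.ev z' Γ := by
  classical
  refine Sd.eval_congr fun v hv => ?_
  obtain ⟨m, hm, k⟩ := (mem_vars_iff_mem_support v).1 hv
  have le : Bt.wg Prod.snd v ≤ Finsupp.weight (Bt.wg Prod.snd) m :=
    wt_le (isWeightedHomogeneous_monomial _ m (1 : ℝ) rfl) (by rwa [vars_monomial one_ne_zero])
  have e : ∀ c : VV C τ, c.2 ≠ 0 → c.2 ≤ Finsupp.weight (Bt.wg Prod.snd) m → z c = z' c :=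
    fun c _ l => by
      obtain ⟨i, j⟩ := tr_ind (blk := blk) (μ := c.2) fun ℓ =>
        (Finsupp.mapDomain_mono l ℓ).trans ((g.ty m hm).1 ℓ)
      have := h c.1 _ j
      rwa [i] at this
  cases v with
  | inl c => exact e c (g.live c hv) le
  | inr a => exact congrArg Int.cast (b.ok.om_congr e a le)

theorem uv_uo {B : Bs L} {W : Finset (Finset τ)} {s : ℕ} {κ : ℝ} (h : ∀ c, B.st c ≤ B.M)
    (y : B.T.Cw (FR (Option τ) s κ) → ℤ) (x : L) (F : B.T.C) {A : Finset τ} (a : A ∈ W) :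
    uv B W (c0 x (zc (rd B W s κ y))) (F, ind A) = uo B.T id (zc y) (F, ind A) := by
  by_cases k : #A = B.T.lev F
  · refine (Et.uv_rv _ ⟨(F, A), Nat.lt_succ_of_le (h F), a, k⟩).trans ?_
    simp [c0, zc, rd, uo, Sw.ex]
  · refine (sum_eq_zero fun w m => (k ?_).elim).trans (sum_eq_zero fun p m => (k ?_).elim).symm
    · obtain ⟨i, j⟩ := (mem_filter.1 m).2
      exact (congrArg card (ind_inj j)).symm.trans (w.2.2.2.trans (congrArg _ i))
    · obtain ⟨i, j⟩ := (mem_filter.1 m).2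
      have e : ((ind A).mapDomain some).mapDomain (fun _ => ()) = B.T.deg F :=
        (congrArg _ j.symm).trans (p.2.trans (congrArg _ i))
      rw [TS.lev, ← e, Finsupp.degree_mapDomain, Finsupp.degree_mapDomain, Finsupp.degree_apply]
      refine (card_eq_sum_ones A).trans (sum_congr rfl fun c m => ?_)
      exact (if_pos (show c ∈ A from m)).symm
end ty

end W2

open W2 in
theorem wt2 {s d : ℕ} (h : WITG s d) (dv : DATV) : WT2 s d := fun M => by
  obtain ⟨e0, h⟩ := h M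
  refine ⟨e0, fun e he => ?_⟩
  obtain ⟨K, h⟩ := h e he
  refine ⟨K, fun ε o f H n Y p Bt Γ q a t b g r ht => ?_⟩
  have al : Al s (Wt d o.Q) bk none := al_gW p.c.ds
  obtain ⟨Ψ, G, φ, ad, g1, g2, -, φ1, big⟩ := h ε o f H n Y p a _
    ((dv _ _ f.toBs _ bk none s n Bt p.fo.bs (Kx.wf p.c) al b).2 q Γ g) r
  have nm : ∀ (S : Finset (Fin d → Fin o.Q)) (u : (Fin d → Fin o.Q) → f.T.C → ℤ),
      ‖∏ ω ∈ S, φ ω (u ω)‖ ≤ 1 := fun S u => by
    rw [norm_prod]; exact prod_le_one (fun _ _ => norm_nonneg _) fun _ _ => φ1 _ _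
  refine ⟨Ψ, G, fun y => ∏ ω with xo ω (some t) = 1, φ ω (f.T.pw _ (fp s _ (xo ω)) y),
    fun y => ∏ ω with ¬ xo ω (some t) = 1, φ ω (f.T.pw _ (fp s _ (xo ω)) y), 0, ad,
    fun y => ⟨g1 y, nm _ _, nm _ _⟩, g2, fun y y' m => prod_congr rfl fun ω k =>
      congrArg _ (pw_inv f.T (a := some none) (mem_filter.1 k).2.symm m),
    fun y y' m => prod_congr rfl fun ω k => congrArg _ (pw_bl f.T ?_ m),
    big.trans_eq (congrArg (fun F => ‖(f.T.tw _ Ψ).Ec F‖) (funext fun y => ?_))⟩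
  · obtain ⟨t, rfl⟩ := Option.ne_none_iff_exists'.1 ht
    exact if_neg fun z => (mem_filter.1 k).2 (if_pos z)
  · refine congrArg₂ (· * ·) ?_ (congrArg ee ?_)
    · exact (congrArg (G y * ·) (prod_filter_mul_prod_filter_not _ _ _).symm).trans
        (mul_assoc _ _ _).symm
    · refine (ev_ty b.bo g fun F A i =>
        uv_uo (fun c => (p.fo.ok.old.stg.le c).1) y 0 F ((al.mem A).2 i)).trans ?_
      simp [sv]

end Crest.Agent.N49.St

end
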