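import Crest.Agent.N49.St.Defs
import Crest.Agent.N49.St.Wt2
import Crest.Agent.N49.Sw.Swap0b
import Crest.Agent.N49.Sw.Reg
import Crest.Agent.N49.Sw.Desc
import Crest.Agent.N49.Mv.Move
import Crest.Agent.N49.Top.Pl

/-!
# Row 49 (helper98): from the state of the loop to the output of the substitution step
-/

set_option autoImplicit false
set_option linter.unusedSectionVars false

open MvPolynomial Finset

noncomputable section

namespace Crest.Agent.N49.St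

open Tw Rm Md Sw Sd Sy Su N49.Top

section out
variable {σ I κ : Type} [Fintype σ] [DecidableEq σ] [Fintype κ] [DecidableEq κ] {l : ℕ}
  (q : Gq σ I κ l) (s : ℕ) (T : TS Unit) (B : Bk (VV T.C σ) σ)
  (P : I → MvPolynomial (VV T.C σ ⊕ B.N) ℝ) (K0 : Kn σ)
  (H : Set (T.Cw (MR (fun _ => ()) q.W K0) → ℤ))

/-- **the output of the substitution step at the size `n`** -/
def Mo (n : ℕ) : Prop := ∃ (w κ0 b : ℝ) (κ' : (σ ⊕ κ × Bool →₀ ℕ) → ℝ)
  (o : (sp B q.cl (q.W' s)).N → ℝ), 1 ≤ w ∧ w ≤ 2 ^ n ∧ 1 / 2 ^ n ≤ b ∧ b ≤ κ0 ∧ κ0 ≤ 1 ∧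
    (∀ μ, b ≤ κ' μ ∧ κ' μ ≤ 1) ∧ 1 / 2 ^ n ≤ (T.sh (MR (fun _ => ()) (q.W' s) (dk κ'))).P
      {y | ∃ k Y, q.Oq s T B P w κ0 b (2 ^ n) _ H _ o y k Y}

variable {q s T B P K0 H}

theorem oq_mono {w κ0 b R R' : ℝ} {K : Kn (σ ⊕ κ × Bool)} {o y k Y}
    (h : q.Oq s T B P w κ0 b R K0 H K o y k Y) (e : R ≤ R') :
    q.Oq s T B P w κ0 b R' K0 H K o y k Y :=
  ⟨h.pt, h.om, h.cell, h.old, h.deg, fun a μ x y z => (h.err a μ x y z).trans e,
    fun j => (h.rel j).imp fun _ k => ⟨k.1, fun ξ a =>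
      (k.2 ξ a).trans (mul_le_mul_of_nonneg_right e (Real.sqrt_nonneg _))⟩⟩

theorem dn_W' (h : Dn q.W) : Dn (q.W' s) := fun _ a _ b => mem_filter.2
  ⟨dn_full _ (mem_filter.1 a).1 _ b, h _ (mem_filter.1 a).2 _ (Finsupp.mapDomain_mono b)⟩

theorem mo_of {st : T.C → ℕ} {M G g n : ℕ} (t : T.Stg st M) (d : Dn q.W) {κ0 : ℝ} (k1 : κ0 ≤ 1)
    (e1 : 2 * g ≤ n) (e2 : G ≤ n)
    (h : ∃ (b : ℝ) (κ' : (σ ⊕ κ × Bool →₀ ℕ) → ℝ) (o : (sp B q.cl (q.W' s)).N → ℝ),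
      1 / 2 ^ g ≤ b ∧ b ≤ κ0 ∧ (∀ μ, b ≤ κ' μ ∧ κ' μ ≤ 1) ∧
      1 / 2 ^ G ≤ (T.sh (MR (fun _ => ()) (q.W' s) (dk κ'))).P
        {y | ∃ k Y, q.Oq s T B P (4 ^ g) κ0 b (2 ^ G) _ H _ o y k Y}) : Mo q s T B P K0 H n := by
  obtain ⟨b, κ', o, a1, a2, a3, a4⟩ := h
  refine ⟨4 ^ g, κ0, b, κ', o, one_le_pow₀ (by norm_num), ?_, (Mv.hf (by omega)).trans a1, a2, k1,
    a3, ((Mv.hf e2).trans a4).trans ((TS.sh_tri t.cl (De.mr_ok (dn_W' d) fun μ _ =>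
      (lt_of_lt_of_le (by positivity) a1).trans_le (a3 μ).1)).P_mono fun y ⟨k, Y, z⟩ =>
        ⟨k, Y, oq_mono z (pow_le_pow_right₀ one_le_two e2)⟩)⟩
  rw [show (4 : ℝ) = 2 ^ 2 by norm_num, ← pow_mul]
  exact pow_le_pow_right₀ one_le_two e1
end out

/-- the sizes of the step -/
def n1 (s e c n : ℕ) : ℕ :=
  n ^ e + n * c + n * n ^ s + s.factorial + 2 * n * n + ((12 * n + 20) * 2 ^ s + 5) + n

/-- the width -/
def gw (s e c c' n0 n : ℕ) : ℕ := n1 s e c n ^ c' + (n + 2) ^ (c + 1) + 2 * n1 s e c n + s + 2 + n0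

theorem num {s N a g c r : ℕ} (h : (g ^ 3 + 2) ^ c ≤ 2 ^ g) (h' : g ^ 3 + 2 ≤ 2 ^ g)
    (e : N + 2 * a + s + 2 ≤ g) (k : r ≤ a * g) :
    (((N : ℝ) + (a + s : ℕ) + r + 2) ^ c * 2 ^ (a + s) ≤ 4 ^ g) ∧
      ((N : ℝ) + r + 1 ≤ 4 ^ g * (1 / 2 ^ a)) ∧ N + (a + s) + r + 2 ≤ g ^ 3 := by
  have g2 : 2 ≤ g := by omega
  have u : N + (a + s) + r + 2 ≤ g ^ 3 := by
    have : a * g ≤ g * g := Nat.mul_le_mul_right _ (by omega)
    have : 2 * (g * g) ≤ g ^ 3 := by rw [pow_succ, pow_two]; nlinarith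
    nlinarith
  have v : (4 : ℕ) ^ g = 2 ^ g * 2 ^ g := (mul_pow 2 2 g)
  refine ⟨?_, ?_, u⟩
  · have : (N + (a + s) + r + 2) ^ c * 2 ^ (a + s) ≤ 4 ^ g := v ▸ Nat.mul_le_mul
      ((Nat.pow_le_pow_left (by omega) c).trans h) (Nat.pow_le_pow_right two_pos (by omega))
    exact_mod_cast this
  · rw [mul_one_div, le_div_iff₀ (by positivity)]
    have : (N + r + 1) * 2 ^ a ≤ 4 ^ g := v ▸ Nat.mul_le_mul (by omega)
      (Nat.pow_le_pow_right two_pos (by omega))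
    exact_mod_cast this

/-- the core -/
theorem core (sw : S0.SWAP0) (rg : REG) {s M : ℕ} (sb : SUBN s M) (e1 : ℕ) : ∃ e K : ℕ, 1 ≤ e ∧
    ∀ (τ L D : Type) [Fintype τ] [DecidableEq τ] [Fintype L] [DecidableEq L] [Fintype D]
    [DecidableEq D] (B : Bs L) (W : Finset (Finset τ)) (blk : τ → L) (x : τ) (U : Finset L)
    (q q' : Finset L → Prop) (Bt : Bk (VV B.T.C τ) τ)
    (Γ : D → MvPolynomial (VV B.T.C τ ⊕ Bt.N) ℝ) (H : Set (B.SC W → ℤ)) (n mc : ℕ),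
    Mv.Sb B W blk s n → B.M = M → Al s W blk x → Fintype.card D ≤ n → Rmv q q' U → blk x ∈ U →
    mc ≤ s.factorial → (∀ l, 1 ≤ B.la l) → Tyd blk x Bt → Fintype.card Bt.N ≤ n →
    (∀ a, Tyf blk x Bt (fun w => q (w.mapDomain blk).support) (Γ a)) →
    B.Rg 1 (n ^ K) (1 / 2 ^ n ^ K) (1 / 2 ^ n ^ K) → (1 / 2 : ℝ) ^ n ≤ (B.SY W blk).pr H →
    (∀ a t, t ≠ x → Wt2 s B.T B.st W x t (1 / 2 ^ n ^ e1) Bt (Γ a) (1 / 2 ^ (3 * n + 5))) →
    Mo (gq x W (Prod.snd : D × JU blk x U → _) mc) s B.T Bt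
      (fun j => cw Bt ((gq x W (Prod.snd : D × JU blk x U → _) mc).E j) (Γ j.1)) _
      (H0 B W blk H) (n ^ e) := by
  obtain ⟨c1, sw⟩ := sw s
  obtain ⟨c2, rg⟩ := rg s M
  obtain ⟨C, c3, sb⟩ := sb
  obtain ⟨n0, h0⟩ := exp_beats 3 c2
  obtain ⟨n0', h0'⟩ := exp_beats 3 1
  obtain ⟨e, e0, he⟩ := Pl.ge (f := fun n => 2 * gw s e1 c1 c3 (n0 + n0') n +
    gw s e1 c1 c3 (n0 + n0') n ^ c3 + (gw s e1 c1 c3 (n0 + n0') n ^ 3) ^ c2)
    (by unfold gw n1; pl) 1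
  refine ⟨e, (e + 1) * C + e, e0, fun τ L D _ _ _ _ _ _ B W blk x U q q' Bt Γ H n mc o m al cD r hx
    hm l1 ty cB tf R pr wt => ?_⟩
  subst m
  have h2 := o.two
  replace he := he n h2
  beta_reduce at he
  set a := n1 s e1 c1 n with ha
  set g := gw s e1 c1 c3 (n0 + n0') n with hg
  have tb := tb_of o.ok
  have p1 : 1 ≤ n ^ e1 := Nat.one_le_pow _ _ (by omega)
  have g1 : a ^ c3 + (n + 2) ^ (c1 + 1) + 2 * a + s + 2 + (n0 + n0') = g := rfl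
  have a1 : n ^ e1 + n * c1 + n * n ^ s + s.factorial + 2 * n * n + ((12 * n + 20) * 2 ^ s + 5) + n
    = a := rfl
  have rr : S0.r0 s n (3 * n + 5) g ≤ a * g := by
    have : (2 * (3 * n + 5 + (g + 2) * n) + 10) ≤ (12 * n + 20) * g := by
      obtain ⟨k, hk⟩ : ∃ k, g = k + 1 := ⟨g - 1, by omega⟩
      rw [hk]; nlinarith [Nat.zero_le (n * k)]
    have := Nat.mul_le_mul_right (2 ^ s) this
    have : ((12 * n + 20) * 2 ^ s + 5) * g ≤ a * g := Nat.mul_le_mul_right _ (by omega)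
    unfold S0.r0
    nlinarith
  obtain ⟨u1, u2, u3⟩ := num (s := s) (N := (n + 2) ^ (c1 + 1)) (a := a) (c := c2) (h0 g (by omega))
    ((pow_one _).ge.trans (h0' g (by omega))) (by omega) rr
  have nN : n ≤ (n + 2) ^ (c1 + 1) := le_trans (by omega) (Nat.le_self_pow (by omega) _)
  have dg : ∀ b, (Bt.wd b).degree ≤ s := fun b =>
    (gq_ok al (Prod.snd : D × JU blk x U → _) 0).dg _ ((mem_W al).2 (ty.tr b))
  have hh := (rg τ B.T B.st (Bk.nil _ _) Bt Bt (4 ^ g) (4 ^ g) ((n + 2) ^ (c1 + 1)) (a + s)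
    (S0.r0 s n (3 * n + 5) g) (n ^ e) tb ⟨(Et.pn_nil (B := B) 0 s).ok, (·.elim)⟩ ty.bo ty.bo dg dg
    (o.cτ.trans nN) (Nat.zero_le _) (cB.trans nN) (cB.trans nN)
    ((Nat.pow_le_pow_left u3 _).trans (by omega))
    (Un.rg_mono tb.stg R (Nat.pow_le_pow_right (by omega) (by omega))) u1 u1).2.2.2
  have k1 : (1 : ℝ) / 2 ^ a ≤ 1 := by simpa using Mv.hf (Nat.zero_le a)
  have ls : lU blk x U ≤ s := by have := lU_lt al hx; omega
  refine mo_of (G := g ^ c3) (g := g) tb.stg (gq_ok al _ mc).dn k1 (by omega) (by omega)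
    (sb τ _ _ _ a (a * g) g _ B.T B.st Bt _ _ (kz blk B.la) _ (gq_ok al _ mc) ls tb
      (gq_ty al _ mc ty fun j => tf j.1) (by omega) (o.cτ.trans (by omega)) ?_
      (card_KU.trans (o.cτ.trans (by omega))) (hm.trans (by omega)) (cB.trans (by omega))
      (o.cC.trans (Nat.pow_le_pow_right two_pos (by omega))) (fun μ => ?_) le_rfl k1 (by omega)
      le_rfl (Mv.rg_dn o.ok.old (Mv.rg_up o.ok.old R h2 le_rfl) le_rfl (by omega)) ?_ ?_)
  · rw [Fintype.card_prod]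
    refine (Nat.mul_le_mul cD (card_JU.trans ((Nat.pow_le_pow_left o.cτ _).trans
      (Nat.pow_le_pow_right (by omega) ls)))).trans (by omega)
  · have := kz_bd (blk := blk) l1 (fun l => (o.ok.la l).2) μ
    exact ⟨(Mv.hf ((Nat.mul_le_mul_left _ o.cτ).trans (by omega))).trans this.1, this.2⟩
  · refine le_trans ?_ (pr.trans_eq (H0_P o.ok o.wf H).symm)
    rw [one_div_pow]
    exact Mv.hf (le_trans (by omega) (Nat.le_mul_of_pos_right a (by omega)))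
  · intro j π t ht nx e
    have E := gq_E (W := W) (Prod.snd : D × JU blk x U → _) mc j
    refine (Mv.hf rr).trans (sw τ L B.T B.st _ _ _ (a + s) _ _ g W blk x t Bt (Γ j.1) _ _ (4 ^ g) _ _
      π tb al ty (tf j.1) (E ▸ EU_W al j.2) (E ▸ x_EU _) ht nx (E ▸ max_word r hx j.2) e o.cτ cB
      (Nat.pow_le_pow_right (by omega) (by omega)) le_rfl ?_ ?_ ?_ (by exact_mod_cast u2) hh
      (wt j.1 t nx))
    · rw [pow_add]; exact le_of_eq (by field_simp)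
    · have k : (n + 2) ^ c1 * 2 ^ n ^ e1 ≤ 2 ^ a := by
        have : n + 2 ≤ 2 ^ n := by
          obtain ⟨k, rfl⟩ : ∃ k, n = k + 2 := ⟨n - 2, by omega⟩
          have := Nat.lt_two_pow_self (n := k)
          rw [pow_add]; omega
        refine (Nat.mul_le_mul_right _ (Nat.pow_le_pow_left this _)).trans ?_
        rw [← pow_mul, ← pow_add]
        exact Nat.pow_le_pow_right two_pos (by omega)
      rw [mul_one_div, div_le_div_iff₀ (by positivity) (by positivity), one_mul]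
      exact_mod_cast k
    · exact mul_le_of_le_one_right (by positivity) (by simpa using Mv.hf (Nat.zero_le _))

theorem Sub0.mono {τ L D : Type} [Fintype τ] [DecidableEq τ] [Fintype L] [DecidableEq L]
    [Fintype D] [DecidableEq D] {s h n n' : ℕ} {B : Bs L} {W : Finset (Finset τ)} {blk : τ → L}
    {x : τ} {U : Finset L} {H : Set (B.SC W → ℤ)} {Bt : Bk (VV B.T.C τ) τ}
    {Γ : D → MvPolynomial (VV B.T.C τ ⊕ Bt.N) ℝ} (k : Sub0 s B W blk x U H Bt Γ n) (o : B.Ok s h)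
    (al : Al s W blk x) (e : n ≤ n') : Sub0 s B W blk x U H Bt Γ n' := by
  obtain ⟨w, κ0, b, κ', o', a0, a1, a2, a3, a4, a5, a6⟩ := k
  have p : (2 : ℝ) ^ n ≤ 2 ^ n' := pow_le_pow_right₀ one_le_two e
  exact ⟨w, κ0, b, κ', o', a0, a1.trans p, (Mv.hf e).trans a2, a3, a4, a5,
    ((Mv.hf e).trans a6).trans ((TS.sh_tri o.old.stg.cl (De.mr_ok (dn_W' (gq_ok al _ _).dn)
      fun μ _ => (lt_of_lt_of_le (by positivity) a2).trans_le (a5 μ).1)).P_mono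
        fun y ⟨k, Y, z⟩ => ⟨k, Y, oq_mono z p⟩)⟩

/-- **from the state to the output of the substitution step** -/
theorem mid {s d : ℕ} (wt : WT2 s d) (sw : S0.SWAP0) (sb : ∀ M, SUBN s M) : MID s d := fun M => by
  obtain ⟨e0, wt⟩ := wt M
  obtain ⟨K1, wt⟩ := wt e0 le_rfl
  obtain ⟨e, K, -, h⟩ := core sw reg (sb M) e0
  refine ⟨e, K + K1, fun ε q q' U o f H n Y Bt Γ r h0 p l1 ty cB tf rel => ?_⟩
  have h2 : 2 ≤ n := p.sz.1
  have al : Al s (Wt d o.Q) bk none := al_gW p.c.ds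
  exact h _ _ _ f.toBs _ bk none U q q' Bt Γ H n _ (p.fo.sb p.c p.le) p.M al
    ((Fintype.card_fin _).trans_le (p.c.D.trans p.le)) r h0
    (Nat.factorial_le ((lU_lt al h0).1.trans_le (lU_lt al h0).2)) l1 ty cB tf
    (Un.rg_mono p.fo.ok.old.stg p.rg (Nat.pow_le_pow_right (by omega) (by omega))) p.sz.2.2
    fun a t ht => wt ε o f H n Y (pre_up p le_rfl (Nat.pow_le_pow_right (by omega) (by omega)))
      Bt (Γ a) _ a t ty (tf a) (fun y hy => rel y hy a) ht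

end Crest.Agent.N49.St

end
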