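import Crest.Agent.N49.St.Pack
import Crest.Agent.N49.Sw.Ent

/-!
# Row 49 (helper15): one step of the symmetrisation (glue)
-/

set_option autoImplicit false

open MvPolynomial Finset

noncomputable section

namespace Crest.Agent.N49.St

open Tw Rm Md Sw Sd Sy Su

/-- `PACK` for a substitution of a smaller size -/
def PACK2 (s M : ℕ) : Prop := ∃ e M' : ℕ, ∀ K' : ℕ, ∃ K : ℕ, ∀ (τ L D : Type) [Fintype τ]
  [DecidableEq τ] [Fintype L] [DecidableEq L] [Fintype D] [DecidableEq D] (B : Bs L)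
  (W : Finset (Finset τ)) (blk : τ → L) (x : τ) (F : D → Fm L (B.SC W)) (H : Set (B.SC W → ℤ))
  (Bt : Bk (VV B.T.C τ) τ) (Γ : D → MvPolynomial (VV B.T.C τ ⊕ Bt.N) ℝ)
  (q q' : Finset L → Prop) (U : Finset L) (n n0 : ℕ), n0 ≤ n → Mv.Sb B W blk s n → B.M = M →
  Al s W blk x →
  Rmv q q' U → blk x ∈ U → Fintype.card D ≤ n → (∀ a, (B.SY W blk).Dat univ {blk x} (F a)) →
  Tyd blk x Bt → Fintype.card Bt.N ≤ n →
  (∀ a, Tyf blk x Bt (fun w => q (w.mapDomain blk).support) (Γ a)) →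
  (∀ y ∈ H, ∀ a, (B.SY W blk).Rel univ {blk x} y 1 (2 ^ n) fun p =>
    F a p - Bt.ev (uv B W p) (Γ a)) →
  B.Rg 1 (n ^ K) (1 / 2 ^ n ^ K) (1 / 2 ^ n ^ K) → Sub0 s B W blk x U H Bt Γ n0 →
  ∃ (f : Fr B.T τ L) (ν : ℕ) (H' : Set (f.SC W → ℤ)), f.Ok s (n ^ e) ∧ f.M ≤ M' ∧
    f.θ.St B.st f.st ∧ f.Fw ν (n ^ e) ∧ Fintype.card f.T.C ≤ 2 ^ n ^ e ∧
    f.Rg 1 (n ^ K') (1 / 2 ^ n ^ K') (1 / 2 ^ n ^ K') ∧ 1 / 2 ^ n ^ e ≤ (f.SY W blk).pr H' ∧
    Ov (ka B W blk f) H' H ∧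
    AS s f.toBs W blk x (fun a p => F a (ka B W blk f p)) H' (n ^ e) q'

theorem pack2 {s M : ℕ} (h : Pk.PK s M) : PACK2 s M := by
  obtain ⟨e, h⟩ := h
  refine ⟨(s + 1 + s.factorial) * e, tM M, fun K' => ?_⟩
  obtain ⟨K, h⟩ := h K'
  refine ⟨(s + 1 + s.factorial) * K, ?_⟩
  intro τ L D _ _ _ _ _ _ B W blk x F H Bt Γ q q' U n n0 h0 sb hM al r hx cD dat ty cB tf rel rg
    ⟨w, κ0, b, κ', o, a1, _, a3, a4, _, a6, a7⟩
  have n2 := sb.two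
  have l := lU_lt al hx
  have u : n ≤ n ^ (s + 1 + s.factorial) := Nat.le_self_pow (by omega) _
  have v : (2 : ℝ) ^ n ≤ 2 ^ n ^ (s + 1 + s.factorial) := pow_le_pow_right₀ one_le_two u
  have v0 : (2 : ℝ) ^ n0 ≤ 2 ^ n ^ (s + 1 + s.factorial) :=
    pow_le_pow_right₀ one_le_two (h0.trans u)
  have v' : (1 : ℝ) / 2 ^ n ^ (s + 1 + s.factorial) ≤ 1 / 2 ^ n0 :=
    one_div_le_one_div_of_le (by positivity) v0
  have c1 : (lU blk x U + 1).factorial ≤ n ^ (s + 1 + s.factorial) :=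
    (Nat.factorial_le (by omega : _ ≤ s)).trans (Nat.lt_two_pow_self.le.trans
      ((Nat.pow_le_pow_left n2 _).trans (Nat.pow_le_pow_right (by omega) (by omega))))
  have c2 : Fintype.card (D × JU blk x U) ≤ n ^ (s + 1 + s.factorial) := by
    rw [Fintype.card_prod]
    refine (Nat.mul_le_mul cD (card_JU.trans (Nat.pow_le_pow_left sb.cτ _))).trans ?_
    rw [← pow_succ']
    exact Nat.pow_le_pow_right (by omega) (by omega)
  obtain ⟨f, H', b1, b2, b3, b4, b5, b6, b7, b8, b9⟩ := h τ L D _ _ _ _ B W blk (gU W blk x U D) H F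
    Bt Γ q q' U Prod.fst w κ0 b (2 ^ n0) _ (H0 B W blk H) κ' o
    (Mv.Sb.mono sb u) hM
    (gg_gU D al hx) r c1 (cD.trans u) c2 (card_KU.trans (sb.cτ.trans u)) a1 (v'.trans a3) a4 a6 v0
    (by rwa [← pow_mul]) ⟨dat, ty, cB.trans u, tf, fun y hy a => (rel y hy a).mono v⟩
    (fun y hy => hy) (v'.trans a7)
  rw [pow_mul]
  exact ⟨f, _, H', b1, b2.le, b3, b4, b5,
    Un.rg_mono b1.old.stg b6 (Nat.pow_le_pow_left u _), b7, b8, b9⟩

/-- **one step** -/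
theorem step {s d : ℕ} (mid : MID s d) (pk : ∀ M, Pk.PK s M) : STEPL s d := by
  intro ε q q' U r h0 M
  obtain ⟨e0, K0, mid⟩ := mid M
  obtain ⟨e, M', pk⟩ := pack2 (pk M)
  refine ⟨(e0 + 1) * (e + 2), M', fun K' => ?_⟩
  obtain ⟨K, pk⟩ := pk ((e + 2) * K')
  refine ⟨K0 + (e0 + 1) * (K + e), ?_⟩
  rintro o f H n Y p ⟨la, Bt, Γ, a1, a2, a3, a4⟩
  have n2 : 2 ≤ n := p.sz.1
  have pw : ∀ {a b : ℕ}, a ≤ b → n ^ a ≤ n ^ b := fun h => Nat.pow_le_pow_right (by omega) h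
  have u : n ≤ n ^ (e0 + 1) := Nat.le_self_pow (by omega) _
  have h2 : (2 : ℝ) ^ n ≤ 2 ^ n ^ (e0 + 1) := pow_le_pow_right₀ one_le_two u
  have sub := mid ε q q' U o f H n Y Bt Γ r h0 (pre_up p le_rfl (pw (by omega))) la a1 a2 a3 a4
  obtain ⟨f', ν, H', b1, b2, b3, b4, b5, b6, b7, b8, b9⟩ := pk _ _ _ f.toBs _ bk none f.F H Bt Γ
    q q' U (n ^ (e0 + 1)) _ (pw (Nat.le_succ e0)) ((p.fo.mono u).sb p.c (p.le.trans u)) p.M
    (al_gW p.c.ds) r h0 ((Fintype.card_fin _).trans_le ((p.c.D.trans p.le).trans u))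
    (p.fo.dat p.c) a1 (a2.trans u) a3 (fun y hy a => (a4 y hy a).mono h2)
    (Un.rg_mono p.fo.ok.old.stg p.rg (by rw [← pow_mul]; exact pw (by nlinarith))) sub
  generalize hm : n ^ (e0 + 1) = m at u b1 b4 b5 b6 b7 b9
  have m2 : m ^ e + n ≤ m ^ (e + 2) := by
    have : 1 ≤ m ^ e := Nat.one_le_pow _ _ (by omega)
    have : m + 1 ≤ m ^ 2 := by nlinarith
    rw [pow_add]; nlinarith
  have le : m ^ e ≤ m ^ e + n := Nat.le_add_right _ _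
  have ok : f'.Ok s (n ^ (K0 + (e0 + 1) * (K + e))) := Idf.fr_mono p.fo.ok.old.ok.toTri b1
    (by rw [← hm, ← pow_mul]; exact pw (by nlinarith))
  refine ⟨f', ν, H', m ^ e + n, Nat.le_add_left _ _, by rwa [pow_mul, hm], ok, b2, b3,
    by rwa [Nat.add_sub_cancel], b5.trans (Nat.pow_le_pow_right two_pos le),
    Un.rg_mono b1.old.stg b6 (by rw [pow_mul]; exact Nat.pow_le_pow_left m2 _),
    ⟨by omega, (Mv.card_SC _ _).trans ?_, le_trans ?_ b7⟩, b8, ?_⟩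
  · rw [pow_add 2]
    exact Nat.mul_le_mul b5 (Nat.pow_le_pow_right two_pos (p.c.τ.trans p.le))
  · rw [one_div_pow]
    exact Un.half_le le
  · have k := b9.mono subset_rfl le fun _ h => h
    rw [← p.fo.cp_F p.c ok] at k
    exact k

end Crest.Agent.N49.St

end
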