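import Crest.Agent.N49.St.Mid
import Crest.Agent.N49.Sd.Dil

/-!
# Row 49 (helper98): one step of the symmetrisation from its two halves
-/

set_option autoImplicit false

open Finset

noncomputable section

namespace Crest.Agent.N49.St

open Tw Rm Md Sw Sd Sy Su

theorem step2 {s d : ℕ} (mi : MID s d) (pk : ∀ M, PACK s M) : STEPL s d :=
    fun ε q q' U r h0 M => by
  obtain ⟨e1, K1, mi⟩ := mi M
  obtain ⟨e2, M', pk⟩ := pk M
  refine ⟨(e1 + 1) * e2 + 2, M', fun K' => ?_⟩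
  obtain ⟨K2, pk⟩ := pk (((e1 + 1) * e2 + 2) * K')
  refine ⟨K1 + (e1 + 1) * K2 + (e1 + 1) * e2, fun o f H n Y p ⟨l1, Bt, Γ, ty, cB, tf, rel⟩ => ?_⟩
  have h2 : 2 ≤ n := p.sz.1
  have pw : ∀ {a b : ℕ}, a ≤ b → n ^ a ≤ n ^ b := Nat.pow_le_pow_right (by omega)
  have u : n ≤ n ^ (e1 + 1) := Nat.le_self_pow (by omega) _
  have al : Al s (Wt d o.Q) bk none := al_gW p.c.ds
  have sb := p.fo.sb p.c p.le
  obtain ⟨f', ν, H', b1, b2, b3, b4, b5, b6, b7, b8, b9⟩ := pk _ _ (Fin o.D) f.toBs (Wt d o.Q) bk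
    none f.F H Bt Γ q q' U (n ^ (e1 + 1)) (sb.mono u) p.M al r h0
    ((Fintype.card_fin _).trans_le ((p.c.D.trans p.le).trans u)) (p.fo.dat p.c) ty (cB.trans u) tf
    (fun y hy a => (rel y hy a).mono (pow_le_pow_right₀ one_le_two u))
    (Un.rg_mono p.fo.ok.old.stg p.rg ((pow_mul _ _ _).ge.trans (pw (by omega))))
    ((mi ε q q' U o f H n Y Bt Γ r h0 (pre_up p le_rfl (pw (by omega))) l1 ty cB tf rel).mono
      sb.ok al (pw (by omega)))
  have v : (n ^ (e1 + 1)) ^ e2 + n ≤ n ^ ((e1 + 1) * e2 + 2) := by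
    have : 1 ≤ n ^ ((e1 + 1) * e2) := Nat.one_le_pow _ _ (by omega)
    rw [← pow_mul, pow_add _ _ 2, pow_two]
    generalize n ^ ((e1 + 1) * e2) = z at this
    nlinarith [Nat.mul_le_mul this (le_refl n), Nat.mul_le_mul_left z (Nat.mul_le_mul h2 (le_refl n)),
      Nat.mul_le_mul_left z h2]
  refine ⟨f', ν, H', (n ^ (e1 + 1)) ^ e2 + n, by omega, v,
    Idf.fr_mono p.fo.ok.old.ok.toTri b1 ((pow_mul _ _ _).ge.trans (pw (by omega))), b2, b3,
    b4.mono (by omega), b5.trans (Nat.pow_le_pow_right two_pos (by omega)),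
    Un.rg_mono b1.old.stg b6 ((Nat.pow_le_pow_left v _).trans ((pow_mul _ _ _).ge.trans
      (Nat.pow_le_pow_left u _))), ⟨by omega, ?_, ?_⟩, b8, ?_⟩
  · refine (Mv.card_SC f'.toBs _).trans ?_
    rw [pow_add]
    exact Nat.mul_le_mul b5 (Nat.pow_le_pow_right two_pos sb.cτ)
  · rw [one_div_pow]; exact (Mv.hf (by omega)).trans b7
  · have := AS.mono b9 subset_rfl (Nat.le_add_right _ n) fun _ a => a
    unfold ASP
    rw [p.fo.cp_F p.c b1]
    exact this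

end Crest.Agent.N49.St

end
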